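import Mathlib

/-!
# The process of 361 NOTE 3b (3)-(4)

Everything lives on generic fibres: `N`, `S`, `T` (`= S^*`, with the pairing `β`) are vector
spaces over the function field `F`, the spaces of global homomorphisms are `k`-submodules of
spaces of `F`-linear maps.
-/

namespace Vale.Agent.P182.H899

open LinearMap Submodule Module

universe u v

/-- a commuting family on a non-zero finite dimensional space has a common eigenvector -/
theorem exists_common_eigenvector {k : Type u} [Field k] [IsAlgClosed k] {ι : Type*} (n : ℕ) :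
    ∀ (C : Type v) [AddCommGroup C] [Module k C] [FiniteDimensional k C] [Nontrivial C],
      finrank k C = n → ∀ A : ι → Module.End k C, (∀ i j, Commute (A i) (A j)) →
      ∃ c : C, c ≠ 0 ∧ ∀ i, ∃ μ : k, A i c = μ • c := by
  induction n using Nat.strong_induction_on with
  | _ n ih =>
    intro C _ _ _ _ hn A hA
    by_cases hs : ∀ i, ∃ μ : k, A i = μ • (1 : Module.End k C)
    · obtain ⟨c, hc⟩ := exists_ne (0 : C)
      refine ⟨c, hc, fun i => ?_⟩
      obtain ⟨μ, hμ⟩ := hs i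
      exact ⟨μ, by rw [hμ]; rfl⟩
    · push Not at hs
      obtain ⟨i, hi⟩ := hs
      obtain ⟨μ, hμ⟩ := Module.End.exists_eigenvalue (A i)
      let E : Submodule k C := Module.End.eigenspace (A i) μ
      have hE0 : E ≠ ⊥ := hμ
      have hEt : E ≠ ⊤ := by
        intro h
        apply hi μ
        ext c
        have hc : c ∈ E := by rw [h]; trivial
        have := Module.End.mem_eigenspace_iff.1 hc
        rw [this]; rfl
      have hst : ∀ j, ∀ c ∈ E, A j c ∈ E := by
        intro j c hc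
        have h1 : A i c = μ • c := Module.End.mem_eigenspace_iff.1 hc
        apply Module.End.mem_eigenspace_iff.2
        have h2 : A i (A j c) = A j (A i c) := LinearMap.congr_fun (hA i j) c
        rw [h2, h1, map_smul]
      have : Nontrivial E := Submodule.nontrivial_iff_ne_bot.2 hE0
      have hlt : finrank k E < n := by
        rw [← hn]
        exact Submodule.finrank_lt hEt
      obtain ⟨c, hc, h⟩ := ih _ hlt E rfl (fun j => (A j).restrict (hst j)) (by
        intro j j'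
        apply LinearMap.ext
        intro c
        apply Subtype.ext
        exact LinearMap.congr_fun (hA j j') (c : C))
      refine ⟨c, fun h0 => hc (Subtype.ext h0), fun j => ?_⟩
      obtain ⟨ν, hν⟩ := h j
      exact ⟨ν, congrArg Subtype.val hν⟩

section

variable {k : Type*} [Field k] {F : Type*} [Field F] [Algebra k F]
  {N S P T : Type*} [AddCommGroup N] [Module F N]
  [AddCommGroup S] [Module F S] [AddCommGroup P] [Module F P]
  [AddCommGroup T] [Module F T] [Module k T] [IsScalarTower k F T]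
  (β : T →ₗ[F] S →ₗ[F] F)

/-- (3): the operators `A_v`, `c v = (A_v c) x`, commute, so they have a common eigenvector -/
theorem exists_common [IsAlgClosed k] (C C1 : Submodule k (S →ₗ[F] T))
    [FiniteDimensional k C1] (hskew : ∀ c ∈ C, ∀ s t, β (c s) t = - β (c t) s) (hle : C1 ≤ C)
    (hne : C1 ≠ ⊥) (x : P →ₗ[F] S)
    (hXi : ∀ d ∈ C, (∀ p p', β (d (x p)) (x p') = 0) → d = 0) (V : Set (P →ₗ[F] S))
    (hV : ∀ v ∈ V, ∀ c ∈ C1, ∃ c' ∈ C1, ∀ p, c (v p) = c' (x p)) :
    ∃ c ∈ C1, c ≠ 0 ∧ ∀ v ∈ V, ∃ μ : k, ∀ p, c (v p) = (μ • c) (x p) := by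
  have huniq : ∀ c ∈ C1, ∀ c' ∈ C1, (∀ p, c (x p) = c' (x p)) → c = c' := by
    intro c hc c' hc' h
    rw [← sub_eq_zero]
    apply hXi _ (C.sub_mem (hle hc) (hle hc'))
    intro p p'
    rw [LinearMap.sub_apply, h, sub_self, map_zero]; rfl
  choose! A hA1 hA2 using hV
  -- the operators
  let O : V → Module.End k C1 := fun v =>
    { toFun := fun c => ⟨A v c, hA1 v v.2 c c.2⟩
      map_add' := fun c c' => Subtype.ext (huniq _ (hA1 v v.2 _ (c + c').2) _
        (C1.add_mem (hA1 v v.2 _ c.2) (hA1 v v.2 _ c'.2)) fun p => by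
          rw [← hA2 v v.2 _ (c + c').2 p]
          show (c : S →ₗ[F] T) (v.1 p) + (c' : S →ₗ[F] T) (v.1 p) =
            (A v c) (x p) + (A v c') (x p)
          rw [← hA2 v v.2 _ c.2 p, ← hA2 v v.2 _ c'.2 p])
      map_smul' := fun a c => Subtype.ext (huniq _ (hA1 v v.2 _ (a • c).2) _
        (C1.smul_mem a (hA1 v v.2 _ c.2)) fun p => by
          rw [← hA2 v v.2 _ (a • c).2 p]
          show (a • (c : S →ₗ[F] T)) (v.1 p) = a • (A v c) (x p)
          rw [LinearMap.smul_apply, ← hA2 v v.2 _ c.2 p]) }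
  have hT : ∀ (v : V) (c : C1) p, (c : S →ₗ[F] T) (v.1 p) =
      (O v c : S →ₗ[F] T) (x p) := fun v c p => hA2 v v.2 c c.2 p
  have hcomm : ∀ v w : V, Commute (O v) (O w) := by
    intro v w
    apply LinearMap.ext
    intro c
    apply Subtype.ext
    rw [← sub_eq_zero]
    apply hXi _ (C.sub_mem (hle (O v (O w c)).2) (hle (O w (O v c)).2))
    -- `(A_v A_w c) (x p) (x p') = c (v p) (w p')`
    have key : ∀ (v w : V) (p p' : P), β ((O v (O w c) : S →ₗ[F] T) (x p)) (x p') =
        β ((c : S →ₗ[F] T) (v.1 p)) (w.1 p') := by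
      intro v w p p'
      rw [← hT v (O w c) p, hskew _ (hle (O w c).2), ← hT w c p',
        hskew _ (hle c.2), neg_neg]
    intro p p'
    have h1 := key v w p p'
    have h2 := key w v p' p
    have h3 : β ((O w (O v c) : S →ₗ[F] T) (x p)) (x p') =
        - β ((O w (O v c) : S →ₗ[F] T) (x p')) (x p) := hskew _ (hle (O w (O v c)).2) _ _
    rw [LinearMap.sub_apply, map_sub, LinearMap.sub_apply, h1, h3, h2,
      hskew _ (hle c.2) (w.1 p'), neg_neg, sub_self]
  have : Nontrivial C1 := Submodule.nontrivial_iff_ne_bot.2 hne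
  obtain ⟨c, hc, h⟩ := exists_common_eigenvector _ C1 rfl O hcomm
  refine ⟨c, c.2, fun h0 => hc (Subtype.ext h0), fun v hv => ?_⟩
  obtain ⟨μ, hμ⟩ := h ⟨v, hv⟩
  refine ⟨μ, fun p => ?_⟩
  have h1 := hT ⟨v, hv⟩ c p
  rw [h1, hμ]; rfl

variable [Module k S] [IsScalarTower k F S] [FiniteDimensional F S]

/-- the process -/
theorem process_aux [IsAlgClosed k] (C : Submodule k (S →ₗ[F] T)) [FiniteDimensional k C]
    (hskew : ∀ c ∈ C, ∀ s t, β (c s) t = - β (c t) s) (x : N →ₗ[F] S)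
    (hXi : ∀ d ∈ C, (∀ p p', β (d (x p)) (x p') = 0) → d = 0)
    (W : ∀ X : Submodule F S, Submodule k (N →ₗ[F] S ⧸ X))
    (hxW : ∀ X : Submodule F S, X.mkQ ∘ₗ x ∈ W X)
    (G : Submodule F S → Prop)
    (hW : ∀ X, G X → ∀ c ∈ C, (∀ s ∈ X, c s = 0) → ∀ w ∈ W X,
      ∃ c' ∈ C, ∀ n s, X.mkQ s = w n → c s = c' (x n))
    (hG1 : ∀ X, G X → ∀ W' ≤ W X, G ((⨆ w ∈ W', LinearMap.range w).comap X.mkQ)) (n : ℕ) :
    ∀ X, finrank F (S ⧸ X) = n → G X → (∃ c ∈ C, c ≠ 0 ∧ ∀ s ∈ X, c s = 0) →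
      (∀ c ∈ C, (∀ n, ∀ s ∈ X, β (c (x n)) s = 0) → ∀ s ∈ X, c s = 0) →
      ∃ Y, X ≤ Y ∧ G Y ∧ (∃ c ∈ C, c ≠ 0 ∧ ∀ s ∈ Y, c s = 0) ∧
        (∀ w ∈ W Y, ∃ a : k, w = a • (Y.mkQ ∘ₗ x)) ∧
        (∀ c ∈ C, (∀ n, ∀ s ∈ Y, β (c (x n)) s = 0) → ∀ s ∈ Y, c s = 0) := by
  induction n using Nat.strong_induction_on with
  | _ n ih =>
    intro X hn hGX hCX hI
    -- the functionals killing `X`
    let CX : Submodule k (S →ₗ[F] T) :=
      { carrier := {c | c ∈ C ∧ ∀ s ∈ X, c s = 0}
        zero_mem' := ⟨C.zero_mem, fun _ _ => rfl⟩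
        add_mem' := fun {a b} ha hb => ⟨C.add_mem ha.1 hb.1, fun s hs => by
          rw [LinearMap.add_apply, ha.2 s hs, hb.2 s hs, add_zero]⟩
        smul_mem' := fun a c hc => ⟨C.smul_mem a hc.1, fun s hs => by
          rw [LinearMap.smul_apply, hc.2 s hs, smul_zero]⟩ }
    have hle : CX ≤ C := fun c hc => hc.1
    have hfin : FiniteDimensional k CX := Submodule.finiteDimensional_of_le hle
    have hne : CX ≠ ⊥ := by
      obtain ⟨c, hc, hc0, h⟩ := hCX
      intro h0
      have : c ∈ CX := ⟨hc, h⟩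
      rw [h0] at this
      exact hc0 ((Submodule.mem_bot k).1 this)
    let V : Set (N →ₗ[F] S) := {v | X.mkQ ∘ₗ v ∈ W X}
    obtain ⟨c, hc, hc0, heig⟩ := exists_common β C CX hskew hle hne x hXi V (by
      intro v hv c hc
      obtain ⟨c', hc', h⟩ := hW X hGX c hc.1 hc.2 _ hv
      have h1 : ∀ n, c (v n) = c' (x n) := fun n => h n (v n) rfl
      refine ⟨c', ⟨hc', hI c' hc' ?_⟩, h1⟩
      intro n s hs
      rw [← h1, hskew c hc.1, hc.2 s hs]; simp)
    have hsmul : ∀ (c : S →ₗ[F] T) (a : k) (s : S), c (a • s) = a • c s := by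
      intro c a s
      rw [← algebraMap_smul F a s, map_smul, algebraMap_smul]
    -- maps killed by the eigenvector
    let W' : Submodule k (N →ₗ[F] S ⧸ X) :=
      { carrier := {w | w ∈ W X ∧ ∀ n s, X.mkQ s = w n → c s = 0}
        zero_mem' := ⟨(W X).zero_mem, fun n s hs => hc.2 s (by
          rw [LinearMap.zero_apply] at hs
          exact (Submodule.Quotient.mk_eq_zero _).1 hs)⟩
        add_mem' := by
          rintro a b ⟨ha, ha'⟩ ⟨hb, hb'⟩
          refine ⟨(W X).add_mem ha hb, fun n s hs => ?_⟩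
          obtain ⟨s1, h1⟩ := X.mkQ_surjective (a n)
          obtain ⟨s2, h2⟩ := X.mkQ_surjective (b n)
          have h3 : s - (s1 + s2) ∈ X := by
            apply (Submodule.Quotient.mk_eq_zero _).1
            show X.mkQ (s - (s1 + s2)) = 0
            rw [map_sub, map_add, h1, h2, hs, LinearMap.add_apply, sub_self]
          have h4 := hc.2 _ h3
          rw [map_sub, map_add, ha' n s1 h1, hb' n s2 h2, add_zero, sub_zero] at h4
          exact h4
        smul_mem' := by
          rintro a w ⟨hw, hw'⟩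
          refine ⟨(W X).smul_mem a hw, fun n s hs => ?_⟩
          obtain ⟨s1, h1⟩ := X.mkQ_surjective (w n)
          have h3 : s - a • s1 ∈ X := by
            apply (Submodule.Quotient.mk_eq_zero _).1
            show X.mkQ (s - a • s1) = 0
            rw [map_sub, hs]
            have : X.mkQ (a • s1) = a • X.mkQ s1 := rfl
            rw [this, h1, LinearMap.smul_apply, sub_self]
          have h4 := hc.2 _ h3
          rw [map_sub, hsmul, hw' n s1 h1, smul_zero, sub_zero] at h4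
          exact h4 }
    have hW' : W' ≤ W X := fun w hw => hw.1
    by_cases hstop : W' = ⊥
    · refine ⟨X, le_rfl, hGX, hCX, fun w hw => ?_, hI⟩
      -- lift `w`
      obtain ⟨g, hg⟩ := X.mkQ.exists_rightInverse_of_surjective
        (LinearMap.range_eq_top.2 X.mkQ_surjective)
      have hgw : X.mkQ ∘ₗ (g ∘ₗ w) = w := by
        rw [← LinearMap.comp_assoc, hg, LinearMap.id_comp]
      obtain ⟨μ, hμ⟩ := heig (g ∘ₗ w) (by show X.mkQ ∘ₗ (g ∘ₗ w) ∈ W X; rw [hgw]; exact hw)
      refine ⟨μ, ?_⟩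
      have h1 : w - μ • (X.mkQ ∘ₗ x) ∈ W' := by
        refine ⟨(W X).sub_mem hw ((W X).smul_mem μ (hxW X)), fun n s hs => ?_⟩
        have h3 : s - (g (w n) - μ • x n) ∈ X := by
          apply (Submodule.Quotient.mk_eq_zero _).1
          show X.mkQ (s - (g (w n) - μ • x n)) = 0
          rw [map_sub, map_sub, hs]
          have e1 : X.mkQ (g (w n)) = w n := LinearMap.congr_fun hgw n
          have e2 : X.mkQ (μ • x n) = μ • X.mkQ (x n) := rfl
          rw [e1, e2]
          show w n - μ • X.mkQ (x n) - (w n - μ • X.mkQ (x n)) = 0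
          rw [sub_self]
        have h4 := hc.2 _ h3
        have h5 : c (g (w n)) = (μ • c) (x n) := hμ n
        rw [map_sub, map_sub, h5, hsmul, LinearMap.smul_apply, sub_self, sub_zero] at h4
        exact h4
      rw [hstop] at h1
      exact sub_eq_zero.1 ((Submodule.mem_bot k).1 h1)
    · -- enlarge
      let X' : Submodule F S := (⨆ w ∈ W', LinearMap.range w).comap X.mkQ
      have hXX' : X ≤ X' := by
        intro s hs
        have h0 : X.mkQ s = 0 := (Submodule.Quotient.mk_eq_zero _).2 hs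
        apply Submodule.mem_comap.2
        rw [h0]; exact Submodule.zero_mem _
      have hcX' : ∀ s ∈ X', c s = 0 := by
        -- descend `c`
        let cb : S ⧸ X →ₗ[F] T := X.liftQ c (fun s hs => hc.2 s hs)
        have h1 : (⨆ w ∈ W', LinearMap.range w) ≤ LinearMap.ker cb := by
          refine iSup₂_le fun w hw => ?_
          rintro _ ⟨n, rfl⟩
          obtain ⟨s, hs⟩ := X.mkQ_surjective (w n)
          rw [LinearMap.mem_ker, ← hs]
          exact hw.2 n s hs
        intro s hs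
        exact LinearMap.mem_ker.1 (h1 hs)
      have hlt : X < X' := by
        refine lt_of_le_of_ne hXX' fun h => hstop ?_
        rw [Submodule.eq_bot_iff]
        intro w hw
        apply LinearMap.ext
        intro n
        obtain ⟨s, hs⟩ := X.mkQ_surjective (w n)
        have h1 : s ∈ X' := by
          apply Submodule.mem_comap.2
          rw [hs]
          exact Submodule.mem_iSup_of_mem w (Submodule.mem_iSup_of_mem hw ⟨n, rfl⟩)
        rw [← h] at h1
        rw [← hs]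
        exact (Submodule.Quotient.mk_eq_zero _).2 h1
      have hI' : ∀ c ∈ C, (∀ n, ∀ s ∈ X', β (c (x n)) s = 0) → ∀ s ∈ X', c s = 0 := by
        intro d hd h
        have hdX : ∀ s ∈ X, d s = 0 := hI d hd fun n s hs => h n s (hXX' hs)
        let db : S ⧸ X →ₗ[F] T := X.liftQ d (fun s hs => hdX s hs)
        have h1 : (⨆ w ∈ W', LinearMap.range w) ≤ LinearMap.ker db := by
          refine iSup₂_le fun w hw => ?_
          rintro _ ⟨n, rfl⟩
          obtain ⟨e, he, hew⟩ := hW X hGX d hd hdX w hw.1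
          have he0 : e = 0 := by
            apply hXi e he
            intro p p'
            obtain ⟨s, hs⟩ := X.mkQ_surjective (w p)
            rw [← hew p s hs, hskew d hd, h p' s ?_, neg_zero]
            apply Submodule.mem_comap.2
            rw [hs]
            exact Submodule.mem_iSup_of_mem w (Submodule.mem_iSup_of_mem hw ⟨p, rfl⟩)
          obtain ⟨s, hs⟩ := X.mkQ_surjective (w n)
          rw [LinearMap.mem_ker, ← hs]
          show d s = 0
          rw [hew n s hs, he0]; rfl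
        intro s hs
        exact LinearMap.mem_ker.1 (h1 hs)
      have hfr : finrank F (S ⧸ X') < n := by
        have h1 := X.finrank_quotient_add_finrank
        have h2 := X'.finrank_quotient_add_finrank
        have h3 := Submodule.finrank_lt_finrank_of_lt hlt
        omega
      obtain ⟨Y, hY1, hY2⟩ := ih _ hfr X' rfl (hG1 X hGX W' hW') ⟨c, hc.1, hc0, hcX'⟩ hI'
      exact ⟨Y, hXX'.trans hY1, hY2⟩

/-- THE PROCESS (361 NOTE 3b (3)-(4)) -/
theorem process [IsAlgClosed k] (C : Submodule k (S →ₗ[F] T)) [FiniteDimensional k C]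
    (hskew : ∀ c ∈ C, ∀ s t, β (c s) t = - β (c t) s) (hC : C ≠ ⊥) (x : N →ₗ[F] S)
    (P : Submodule F N)
    (hXi : ∀ d ∈ C, (∀ p ∈ P, ∀ p' ∈ P, β (d (x p)) (x p') = 0) → d = 0)
    (U : Submodule k (P →ₗ[F] S)) (hxU : x ∘ₗ P.subtype ∈ U)
    (hU : ∀ c ∈ C, ∀ u ∈ U, ∃ c' ∈ C, ∀ p : P, c (u p) = c' (x p))
    (W : ∀ X : Submodule F S, Submodule k (N →ₗ[F] S ⧸ X))
    (hxW : ∀ X : Submodule F S, X.mkQ ∘ₗ x ∈ W X)
    (G : Submodule F S → Prop)
    (hW : ∀ X, G X → ∀ c ∈ C, (∀ s ∈ X, c s = 0) → ∀ w ∈ W X,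
      ∃ c' ∈ C, ∀ n s, X.mkQ s = w n → c s = c' (x n))
    (hG0 : ∀ U' ≤ U, G (⨆ u ∈ U', LinearMap.range u))
    (hG1 : ∀ X, G X → ∀ W' ≤ W X, G ((⨆ w ∈ W', LinearMap.range w).comap X.mkQ)) :
    ∃ X, G X ∧ (∃ c ∈ C, c ≠ 0 ∧ ∀ s ∈ X, c s = 0) ∧
      (∀ w ∈ W X, ∃ a : k, w = a • (X.mkQ ∘ₗ x)) ∧
      (∀ u ∈ U, ∃ a : k, ∀ p : P, u p - a • x p ∈ X) ∧
      (∀ c ∈ C, (∀ n, ∀ s ∈ X, β (c (x n)) s = 0) → ∀ s ∈ X, c s = 0) := by
  have hXi' : ∀ d ∈ C, (∀ p p', β (d (x p)) (x p') = 0) → d = 0 :=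
    fun d hd h => hXi d hd fun p _ p' _ => h p p'
  let xP : P →ₗ[F] S := x ∘ₗ P.subtype
  have hXiP : ∀ d ∈ C, (∀ p p', β (d (xP p)) (xP p') = 0) → d = 0 :=
    fun d hd h => hXi d hd fun p hp p' hp' => h ⟨p, hp⟩ ⟨p', hp'⟩
  have hsmul : ∀ (c : S →ₗ[F] T) (a : k) (s : S), c (a • s) = a • c s := by
    intro c a s
    rw [← algebraMap_smul F a s, map_smul, algebraMap_smul]
  obtain ⟨c, hc, hc0, heig⟩ := exists_common β C C hskew le_rfl hC xP hXiP (U : Set (P →ₗ[F] S))
    (fun u hu c hc => hU c hc u hu)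
  let U' : Submodule k (P →ₗ[F] S) :=
    { carrier := {u | u ∈ U ∧ ∀ p, c (u p) = 0}
      zero_mem' := ⟨U.zero_mem, fun p => by simp⟩
      add_mem' := by
        rintro a b ⟨ha, ha'⟩ ⟨hb, hb'⟩
        exact ⟨U.add_mem ha hb, fun p => by rw [LinearMap.add_apply, map_add, ha', hb', add_zero]⟩
      smul_mem' := by
        rintro a w ⟨hw, hw'⟩
        refine ⟨U.smul_mem a hw, fun p => ?_⟩
        rw [LinearMap.smul_apply, hsmul, hw', smul_zero] }
  have hU' : U' ≤ U := fun u hu => hu.1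
  let X : Submodule F S := ⨆ u ∈ U', LinearMap.range u
  have hcX : ∀ s ∈ X, c s = 0 := by
    have h1 : X ≤ LinearMap.ker c := by
      refine iSup₂_le fun u hu => ?_
      rintro _ ⟨p, rfl⟩
      exact LinearMap.mem_ker.2 (hu.2 p)
    exact fun s hs => LinearMap.mem_ker.1 (h1 hs)
  have hmem : ∀ u ∈ U', ∀ p, u p ∈ X := fun u hu p =>
    Submodule.mem_iSup_of_mem u (Submodule.mem_iSup_of_mem hu ⟨p, rfl⟩)
  have hI : ∀ c ∈ C, (∀ n, ∀ s ∈ X, β (c (x n)) s = 0) → ∀ s ∈ X, c s = 0 := by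
    intro d hd h
    have h1 : X ≤ LinearMap.ker d := by
      refine iSup₂_le fun u hu => ?_
      rintro _ ⟨p, rfl⟩
      obtain ⟨e, he, heu⟩ := hU d hd u hu.1
      have he0 : e = 0 := by
        apply hXiP e he
        intro p p'
        have h2 : e (xP p) = d (u p) := (heu p).symm
        rw [h2, hskew d hd]
        show -(β (d (x p')) (u p)) = 0
        rw [h p' _ (hmem u hu p), neg_zero]
      rw [LinearMap.mem_ker, heu p, he0]; rfl
    exact fun s hs => LinearMap.mem_ker.1 (h1 hs)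
  obtain ⟨Y, hXY, hGY, hCY, hWY, hIY⟩ := process_aux β C hskew x hXi' W hxW G hW hG1 _ X rfl
    (hG0 U' hU') ⟨c, hc, hc0, hcX⟩ hI
  refine ⟨Y, hGY, hCY, hWY, fun u hu => ?_, hIY⟩
  obtain ⟨μ, hμ⟩ := heig u hu
  refine ⟨μ, fun p => hXY ?_⟩
  have h1 : u - μ • xP ∈ U' := by
    refine ⟨U.sub_mem hu (U.smul_mem μ hxU), fun p => ?_⟩
    have h2 : c (u p) = (μ • c) (xP p) := hμ p
    rw [LinearMap.sub_apply, map_sub, h2, LinearMap.smul_apply μ xP, hsmul,
      LinearMap.smul_apply, sub_self]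
  exact hmem _ h1 p

end

end Vale.Agent.P182.H899
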